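import Vale.Agent.P181.LF.Near

set_option autoImplicit false

/-!
# P181, LF: `C b loglog a ≤ (b - a) log (D_2 / a)`

From `NearP` (at most `a ^ 2 / polylog` cells below row two), `NearV` (at least as many) and
`PolyS`.
-/

open Finset

namespace Vale.Agent.P181.LF

open Vale.Agent.P181.H280 (plethMult)
open Vale.Agent.P181.T4 (ex)
open Vale.Agent.P181.PL (dn PolyS)

/-- `NearP` of the line LL. -/
def NearP : Prop := ∃ (C : ℝ) (c : ℕ), 0 < C ∧ ∀ a b : ℕ, a < b → ∀ (n : ℕ) (lam : Fin n → ℕ),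
  C * b * Real.log (2 + Real.log a) ≤ ((b : ℝ) - a) * Real.log ((dn lam 2 : ℝ) / a) →
  C * (1 + Real.log a) ^ c * (dn lam 2 : ℝ) ≤ (a : ℝ) ^ 2 →
  plethMult a b n lam ≤ plethMult b a n lam

/-- `RV.NearV`. -/
def NearV : Prop := ∀ (C₀ : ℝ) (c₀ : ℕ), 0 < C₀ → ∃ (C : ℝ) (a₀ : ℕ), 0 < C ∧
  ∀ (a b n : ℕ) (lam : Fin n → ℕ), a₀ ≤ a →
  C * b * Real.log (2 + Real.log a) ≤ ((b : ℝ) - a) * Real.log a →
  (a : ℝ) ^ 2 ≤ C₀ * (1 + Real.log a) ^ c₀ * (dn lam 2 : ℝ) →
  plethMult a b n lam ≤ plethMult b a n lam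

/-- Every shape with `C b loglog a ≤ (b - a) log (D_2 / a)`. -/
def NearU : Prop := ∃ C : ℝ, 0 < C ∧ ∀ a b : ℕ, a < b → ∀ (n : ℕ) (lam : Fin n → ℕ),
  C * b * Real.log (2 + Real.log a) ≤ ((b : ℝ) - a) * Real.log ((dn lam 2 : ℝ) / a) →
  plethMult a b n lam ≤ plethMult b a n lam

lemma log_half : (1 / 2 : ℝ) ≤ Real.log 2 := by
  have := Real.log_two_gt_d9
  linarith

lemma half_le (a : ℕ) : (1 / 2 : ℝ) ≤ Real.log (2 + Real.log a) := by
  have h1 : (0 : ℝ) ≤ Real.log a := Real.log_natCast_nonneg a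
  have h2 : Real.log 2 ≤ Real.log (2 + Real.log a) :=
    Real.log_le_log (by norm_num) (by linarith)
  linarith [log_half]

lemma log_div_le {a b D : ℕ} (ha : 0 < a) (hb : 0 < b) (hD : D ≤ a * b) :
    Real.log ((D : ℝ) / a) ≤ Real.log b := by
  have hb1 : (1 : ℝ) ≤ b := by exact_mod_cast hb
  have ha1 : (0 : ℝ) < a := by exact_mod_cast ha
  rcases Nat.eq_zero_or_pos D with h0 | h0
  · subst h0
    rw [Nat.cast_zero, zero_div, Real.log_zero]
    exact Real.log_nonneg hb1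
  · have hD0 : (0 : ℝ) < D := by exact_mod_cast h0
    refine Real.log_le_log (by positivity) ?_
    rw [div_le_iff₀ ha1]
    have : (D : ℝ) ≤ a * b := by exact_mod_cast hD
    linarith

lemma log_poly {C : ℝ} (hC : 0 < C) (c : ℕ) {a b : ℕ} (ha : 2 ≤ a) (hb : 0 < b)
    (h : (b : ℝ) < C * a * (1 + Real.log a) ^ c) :
    Real.log b ≤ (2 * |Real.log C| + 1 + c) * Real.log a := by
  have ha0 : (0 : ℝ) < a := by exact_mod_cast (by omega : 0 < a)
  have ha2 : (2 : ℝ) ≤ a := by exact_mod_cast ha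
  have hb0 : (0 : ℝ) < b := by exact_mod_cast hb
  have hL := one_le_L a
  have hL0 : (0 : ℝ) < 1 + Real.log a := by linarith
  have h1 : Real.log b ≤ Real.log (C * a * (1 + Real.log a) ^ c) :=
    Real.log_le_log hb0 h.le
  have h2 : Real.log (C * a * (1 + Real.log a) ^ c) =
      Real.log C + Real.log a + c * Real.log (1 + Real.log a) := by
    rw [Real.log_mul (by positivity) (by positivity), Real.log_mul hC.ne' ha0.ne', Real.log_pow]
  have h3 : 1 + Real.log a ≤ a := by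
    have := Real.log_le_sub_one_of_pos ha0
    linarith
  have h4 : Real.log (1 + Real.log a) ≤ Real.log a := Real.log_le_log hL0 h3
  have h5 : (c : ℝ) * Real.log (1 + Real.log a) ≤ c * Real.log a :=
    mul_le_mul_of_nonneg_left h4 (Nat.cast_nonneg c)
  have h6 : Real.log C ≤ |Real.log C| := le_abs_self _
  have h7 : 1 / 2 ≤ Real.log a := log_half.trans (Real.log_le_log (by norm_num) ha2)
  have h8 : |Real.log C| ≤ 2 * |Real.log C| * Real.log a := by
    have h9 : 2 * |Real.log C| * (1 / 2) ≤ 2 * |Real.log C| * Real.log a :=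
      mul_le_mul_of_nonneg_left h7 (by positivity)
    linarith
  rw [h2] at h1
  have h10 : (2 * |Real.log C| + 1 + c) * Real.log a =
      2 * |Real.log C| * Real.log a + Real.log a + c * Real.log a := by ring
  rw [h10]
  linarith

theorem nearU_of (hP : NearP) (hV : NearV) (hS : PolyS) : NearU := by
  obtain ⟨C1, c1, hC1, h1⟩ := hP
  obtain ⟨C2, a0, hC2, h2⟩ := hV C1 c1 hC1
  obtain ⟨C3, c3, hC3, h3⟩ := id hS
  obtain ⟨C4, hC4, h4⟩ := small_a hS (a0 + 2)
  obtain ⟨K, hK⟩ : ∃ K : ℝ, K = 2 * |Real.log C3| + 1 + c3 := ⟨_, rfl⟩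
  have hK0 : 0 < K := by
    rw [hK]
    positivity
  obtain ⟨A, hA⟩ : ∃ A : ℝ, A = ((a0 + 2 : ℕ) : ℝ) := ⟨_, rfl⟩
  have hA0 : 0 < A := by
    rw [hA]
    positivity
  refine ⟨C1 + K * C2 + 2 * (C4 * A), by positivity, fun a b hab n lam hor => ?_⟩
  obtain ⟨Q, hQ⟩ : ∃ Q : ℝ, Q = C1 + K * C2 + 2 * (C4 * A) := ⟨_, rfl⟩
  rw [← hQ] at hor
  have hQ0 : 0 < Q := by
    rw [hQ]
    positivity
  by_cases hz : plethMult a b n lam = 0
  · rw [hz]
    exact Nat.zero_le _
  obtain ⟨hl, hs, _⟩ := H530.zero_stmt a b n lam hz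
  have hdn := dn_le_sum lam 2
  rw [hs] at hdn
  have hb : 0 < b := by omega
  have hb0 : (0 : ℝ) < b := by exact_mod_cast hb
  have ha0 : (0 : ℝ) ≤ a := Nat.cast_nonneg a
  have habR : (a : ℝ) < b := by exact_mod_cast hab
  obtain ⟨ℓ, hℓ⟩ : ∃ ℓ : ℝ, ℓ = Real.log (2 + Real.log a) := ⟨_, rfl⟩
  have hℓ2 : 1 / 2 ≤ ℓ := by
    rw [hℓ]
    exact half_le a
  rcases Nat.eq_zero_or_pos a with ha | ha
  · exfalso
    subst ha
    rw [← hℓ, Nat.cast_zero, div_zero, Real.log_zero, mul_zero] at hor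
    have : 0 < Q * b * ℓ := by positivity
    linarith
  have hlog := log_div_le ha hb hdn
  rcases Nat.lt_or_ge a (a0 + 2) with haA | haA
  · by_cases hb4 : C4 * a ≤ b
    · exact h4 a b haA hb4 n lam
    exfalso
    rw [not_le] at hb4
    have e1 : (a : ℝ) ≤ A := by
      rw [hA]
      exact_mod_cast haA.le
    have e2 : C4 * a ≤ C4 * A := mul_le_mul_of_nonneg_left e1 hC4.le
    have e3 : Real.log b ≤ b := (Real.log_le_sub_one_of_pos hb0).trans (by linarith)
    have e4 : ((b : ℝ) - a) * Real.log ((dn lam 2 : ℝ) / a) ≤ (b - a) * b :=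
      mul_le_mul_of_nonneg_left (hlog.trans e3) (by linarith)
    have e5 : ((b : ℝ) - a) * b ≤ b * b := mul_le_mul_of_nonneg_right (by linarith) hb0.le
    have e6 : Q * b * (1 / 2) ≤ Q * b * Real.log (2 + Real.log a) := by
      rw [← hℓ]
      exact mul_le_mul_of_nonneg_left hℓ2 (by positivity)
    have e7 : b * (Q / 2) ≤ b * (b : ℝ) := by
      calc b * (Q / 2) = Q * b * (1 / 2) := by ring
        _ ≤ _ := e6.trans (hor.trans (e4.trans e5))
    have e8 : Q / 2 ≤ b := le_of_mul_le_mul_left e7 hb0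
    have e9 : 2 * (C4 * A) < Q := by
      rw [hQ]
      have : 0 < K * C2 := by positivity
      linarith
    linarith
  by_cases hbig : C3 * a * (1 + Real.log a) ^ c3 ≤ b
  · exact h3 a b hbig n lam
  rw [not_le] at hbig
  by_cases hD : C1 * (1 + Real.log a) ^ c1 * (dn lam 2 : ℝ) ≤ (a : ℝ) ^ 2
  · refine h1 a b hab n lam (le_trans ?_ hor) hD
    rw [← hℓ]
    have e1 : C1 ≤ Q := by
      rw [hQ]
      have : 0 < K * C2 := by positivity
      have : 0 < C4 * A := by positivity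
      linarith
    exact mul_le_mul_of_nonneg_right (mul_le_mul_of_nonneg_right e1 hb0.le) (by linarith)
  rw [not_le] at hD
  refine h2 a b n lam (by omega) ?_ hD.le
  have g1 := hlog.trans (log_poly hC3 c3 (by omega) hb hbig)
  rw [← hK] at g1
  have g2 : ((b : ℝ) - a) * Real.log ((dn lam 2 : ℝ) / a) ≤ (b - a) * (K * Real.log a) :=
    mul_le_mul_of_nonneg_left g1 (by linarith)
  have g3 : K * C2 ≤ Q := by
    rw [hQ]
    have : 0 < C4 * A := by positivity
    linarith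
  have g4 : K * C2 * b * Real.log (2 + Real.log a) ≤ Q * b * Real.log (2 + Real.log a) := by
    rw [← hℓ]
    exact mul_le_mul_of_nonneg_right (mul_le_mul_of_nonneg_right g3 hb0.le) (by linarith)
  have g5 : K * (C2 * b * Real.log (2 + Real.log a)) ≤ K * ((b - a) * Real.log a) := by
    calc K * (C2 * b * Real.log (2 + Real.log a)) = K * C2 * b * Real.log (2 + Real.log a) := by
          ring
      _ ≤ (b - a) * (K * Real.log a) := g4.trans (hor.trans g2)
      _ = K * ((b - a) * Real.log a) := by ring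
  exact le_of_mul_le_mul_left g5 hK0

end Vale.Agent.P181.LF
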