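import Vale.Agent.P181.LF.Union3
import Vale.Agent.P181.BL.H976.All
import Vale.Agent.P181.BAL.H976.Fin
import Vale.Agent.P181.MD.H809.All
import Vale.Agent.P181.DX.H924.Uni
import Vale.Agent.P181.FD.H422.All
import Vale.Agent.P181.PLX.Main

set_option autoImplicit false

/-!
# P181, LF: the closed theorems for `b ≥ C a`
-/

namespace Vale.Agent.P181.LF

open Vale.Agent.P181

theorem fewA : FewA := fun _ _ _ lam hab h => DX.X924.few_all hab lam h

/-- A tail below row two of at most `a b / C` cells. -/
theorem linD : LinD :=
  linD_of BL.H976.linAll_closed BAL.H976.twoLongD_closed fewA PLX.polyS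

/-- For `b ≥ C a`: every shape except
`a ^ 2 / polylog < λ_2 < θ a ^ 2`, `b - a + 1 < D_2 < a polylog`. -/
theorem linFull : LinFull := linFull_of_third linD MD.H809.thirdLong FD.fatLog PLX.polyS

/-- `linFull` in the letters of the hand-in. -/
theorem linC : LinC := linC_of linFull

/-- `linD` in the letters of the hand-in. -/
theorem linE : LinE := linE_of linD

end Vale.Agent.P181.LF
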