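import Vale.Agent.P181.LF.Union

set_option autoImplicit false

/-!
# P181, LF: the union for `b ≥ C a`, with a long third row or with `BigRG` instead of `GapM`
-/

open Finset

namespace Vale.Agent.P181.LF

open Vale.Agent.P181.H280 (plethMult)
open Vale.Agent.P181.T4 (ex)
open Vale.Agent.P181.PL (dn PolyS)

/-- `MD.ThirdLong`. -/
def ThirdL : Prop := ∃ a0 : ℕ, ∀ (a b n : ℕ) (lam : Fin n → ℕ), a0 ≤ a → 6 * a ≤ b →
  (a : ℝ) ^ (5 / 3 : ℝ) ≤ ex lam 2 → plethMult a b n lam ≤ plethMult b a n lam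

/-- `RG.BigRG`. -/
def BigR : Prop := ∀ K : ℝ, 0 < K → ∃ C : ℝ, 0 < C ∧ ∀ (a b n : ℕ) (lam : Fin (n + 2) → ℕ),
  Antitone lam → ∑ i, lam i = a * b → C * a ≤ b →
  (a : ℝ) * b ≤ K * ∑ i : Fin n, (lam i.succ.succ : ℝ) →
  plethMult a b (n + 2) lam ≤ plethMult b a (n + 2) lam

/-- `LinFull`, other order. -/
def LinC : Prop := ∀ θ : ℝ, 0 < θ → ∃ (C : ℝ) (c : ℕ), 1 ≤ C ∧ ∀ a b : ℕ, C * a ≤ b →
  ∀ (n : ℕ) (lam : Fin n → ℕ),
  (C * (1 + Real.log a) ^ c * (dn lam 1 : ℝ) ≤ (a : ℝ) ^ 2 ∨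
    θ * (a : ℝ) ^ 2 ≤ (ex lam 1 : ℝ) ∨
    C * (1 + Real.log a) ^ c * a ≤ (dn lam 2 : ℝ) ∨ a + dn lam 2 ≤ b + 1) →
  plethMult a b n lam ≤ plethMult b a n lam

/-- `LinC` for a tail of at most `a b / C` cells. -/
def LinE : Prop := ∀ θ : ℝ, 0 < θ → ∃ (C : ℝ) (c : ℕ), 1 ≤ C ∧ ∀ a b : ℕ, C * a ≤ b →
  ∀ (n : ℕ) (lam : Fin n → ℕ), C * (dn lam 2 : ℝ) ≤ a * b →
  (C * (1 + Real.log a) ^ c * (dn lam 1 : ℝ) ≤ (a : ℝ) ^ 2 ∨
    θ * (a : ℝ) ^ 2 ≤ (ex lam 1 : ℝ) ∨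
    C * (1 + Real.log a) ^ c * a ≤ (dn lam 2 : ℝ) ∨ a + dn lam 2 ≤ b + 1) →
  plethMult a b n lam ≤ plethMult b a n lam

lemma disj_mono {C C' : ℝ} {θ : ℝ} {c a b n : ℕ} {lam : Fin n → ℕ} (hC : 0 < C) (hC' : C ≤ C')
    (h : C' * (1 + Real.log a) ^ c * (dn lam 1 : ℝ) ≤ (a : ℝ) ^ 2 ∨
      θ * (a : ℝ) ^ 2 ≤ (ex lam 1 : ℝ) ∨
      C' * (1 + Real.log a) ^ c * a ≤ (dn lam 2 : ℝ) ∨ a + dn lam 2 ≤ b + 1) :
    θ * (a : ℝ) ^ 2 ≤ (ex lam 1 : ℝ) ∨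
      C * (1 + Real.log a) ^ c * (dn lam 1 : ℝ) ≤ (a : ℝ) ^ 2 ∨
      C * (1 + Real.log a) ^ c * a ≤ (dn lam 2 : ℝ) ∨ a + dn lam 2 ≤ b + 1 := by
  have hm : C * (1 + Real.log a) ^ c ≤ C' * (1 + Real.log a) ^ c :=
    pow_mono_c (one_le_L a) hC.le hC' le_rfl
  rcases h with h | h | h | h
  · exact Or.inr (Or.inl (le_trans (mul_le_mul_of_nonneg_right hm (Nat.cast_nonneg _)) h))
  · exact Or.inl h
  · exact Or.inr (Or.inr (Or.inl
      (le_trans (mul_le_mul_of_nonneg_right hm (Nat.cast_nonneg _)) h)))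
  · exact Or.inr (Or.inr (Or.inr h))

theorem linC_of (h : LinFull) : LinC := by
  intro θ hθ
  obtain ⟨C, c, hC, h1⟩ := h θ hθ
  refine ⟨C + 1, c, by linarith, fun a b hab n lam hor => ?_⟩
  exact h1 a b (le_trans (mul_le_mul_of_nonneg_right (by linarith) (Nat.cast_nonneg _)) hab) n lam
    (disj_mono hC (by linarith) hor)

theorem linE_of (h : LinD) : LinE := by
  intro θ hθ
  obtain ⟨C, c, hC, h1⟩ := h θ hθ
  refine ⟨C + 1, c, by linarith, fun a b hab n lam hd hor => ?_⟩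
  exact h1 a b (le_trans (mul_le_mul_of_nonneg_right (by linarith) (Nat.cast_nonneg _)) hab) n lam
    (le_trans (mul_le_mul_of_nonneg_right (by linarith) (Nat.cast_nonneg _)) hd)
    (disj_mono hC (by linarith) hor)

theorem linFull_of_big (hD : LinD) (hB : BigR) : LinFull := by
  intro θ hθ
  obtain ⟨C1, c1, hC1, h1⟩ := hD θ hθ
  obtain ⟨C2, hC2, h2⟩ := hB C1 hC1
  refine ⟨C1 + C2, c1, by positivity, fun a b hab n lam hor => ?_⟩
  by_cases hz : plethMult a b n lam = 0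
  · rw [hz]
    exact Nat.zero_le _
  obtain ⟨hl, hs, _⟩ := H530.zero_stmt a b n lam hz
  have ha0 : (0 : ℝ) ≤ a := Nat.cast_nonneg a
  have g1 : C1 * a ≤ b := le_trans (mul_le_mul_of_nonneg_right (by linarith) ha0) hab
  have g2 : C2 * a ≤ b := le_trans (mul_le_mul_of_nonneg_right (by linarith) ha0) hab
  have hL := one_le_L a
  by_cases hd : C1 * (dn lam 2 : ℝ) ≤ a * b
  · refine h1 a b g1 n lam hd ?_
    have hm : C1 * (1 + Real.log a) ^ c1 ≤ (C1 + C2) * (1 + Real.log a) ^ c1 :=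
      pow_mono_c hL hC1.le (by linarith) le_rfl
    rcases hor with h | h | h | h
    · exact Or.inl h
    · exact Or.inr (Or.inl
        (le_trans (mul_le_mul_of_nonneg_right hm (Nat.cast_nonneg _)) h))
    · exact Or.inr (Or.inr (Or.inl (le_trans (mul_le_mul_of_nonneg_right hm ha0) h)))
    · exact Or.inr (Or.inr (Or.inr h))
  rw [not_le] at hd
  rcases Nat.lt_or_ge n 2 with hn | hn
  · exfalso
    have h0 : dn lam 2 = 0 := by
      rw [dn_range]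
      refine sum_eq_zero fun j hj => ?_
      have := mem_range.1 hj
      rw [if_neg (by omega)]
    rw [h0, Nat.cast_zero, mul_zero] at hd
    have : (0 : ℝ) ≤ (a : ℝ) * b := by positivity
    linarith
  · obtain ⟨k, rfl⟩ : ∃ k, n = k + 2 := ⟨n - 2, by omega⟩
    refine h2 a b k lam hl hs g2 ?_
    have e3 : dn lam 2 = ∑ i : Fin k, lam i.succ.succ := by
      unfold dn
      rw [Fin.sum_univ_succ, Fin.sum_univ_succ]
      simp
    rw [e3] at hd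
    push_cast at hd
    exact hd.le

lemma ex2_big {a b n : ℕ} {lam : Fin n → ℕ} (hl : Antitone lam) {C1 R : ℝ} (hC1 : 0 < C1)
    (hR5 : 5 ≤ R) (hRa : 4 * (C1 + 1) * R ≤ a) (hb1 : 0 < b)
    (hS : ((∑ j ∈ range n, min b (ex lam j) : ℕ) : ℝ) < R * b)
    (hd : (a : ℝ) * b < C1 * (dn lam 2 : ℝ)) :
    (a : ℝ) * b ≤ 4 * (C1 + 1) * R * (ex lam 2 : ℝ) := by
  have hbp : (0 : ℝ) < b := by exact_mod_cast hb1
  obtain ⟨S, hS'⟩ : ∃ S : ℕ, S = ∑ j ∈ range n, min b (ex lam j) := ⟨_, rfl⟩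
  rw [← hS'] at hS
  obtain ⟨N, hN⟩ : ∃ N : ℕ, N = ⌊R⌋₊ := ⟨_, rfl⟩
  have hN1 : (N : ℝ) ≤ R := by
    rw [hN]
    exact Nat.floor_le (by linarith)
  have hN2 : R < N + 1 := by
    rw [hN]
    exact Nat.lt_floor_add_one R
  have hN5 : 5 ≤ N := by
    rw [hN]
    exact Nat.le_floor (by exact_mod_cast hR5)
  rcases fat_alt hl b N hb1 with hf | ⟨hf, hfN⟩
  · exfalso
    rw [← hS'] at hf
    have e1 : (b : ℝ) * (N + 1) ≤ S := by exact_mod_cast hf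
    have e2 : R * b < (N + 1) * b := mul_lt_mul_of_pos_right hN2 hbp
    linarith
  rw [← hS'] at hf
  obtain ⟨r, hr⟩ : ∃ r, N = 2 + r := ⟨N - 2, by omega⟩
  have hrR : (r : ℝ) ≤ R := by
    have : (r : ℝ) ≤ N := by exact_mod_cast (by omega : r ≤ N)
    linarith
  have hrows : (dn lam 2 : ℝ) ≤ r * ex lam 2 + dn lam N := by
    have := dn_le_rows hl 2 r
    rw [← hr] at this
    exact_mod_cast this
  have hdnN : (dn lam N : ℝ) ≤ S := by exact_mod_cast hf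
  have hC1' : 0 < C1 + 1 := by linarith
  have hRab : 4 * (C1 + 1) * R * b ≤ a * b := mul_le_mul_of_nonneg_right hRa hbp.le
  have hD0 : (0 : ℝ) ≤ (dn lam 2 : ℝ) := Nat.cast_nonneg _
  obtain ⟨U, hU⟩ : ∃ U : ℝ, U = a * b / (4 * (C1 + 1)) := ⟨_, rfl⟩
  have hU1 : 4 * (C1 + 1) * U = a * b := by
    rw [hU]
    field_simp
  have hRU : R * b ≤ U := by
    have : 4 * (C1 + 1) * (R * b) ≤ 4 * (C1 + 1) * U := by
      rw [hU1]
      linarith
    exact le_of_mul_le_mul_left this (by positivity)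
  have hUp : 0 < U := lt_of_lt_of_le (mul_pos (by linarith) hbp) hRU
  have hDU : 4 * U < dn lam 2 := by
    have e1 : (C1 + 1) * (4 * U) < (C1 + 1) * (dn lam 2 : ℝ) := by
      have e2 : (C1 + 1) * (4 * U) = a * b := by linarith
      rw [e2]
      linarith
    exact lt_of_mul_lt_mul_left e1 hC1'.le
  have hre : U ≤ r * ex lam 2 := by linarith
  have hre2 : U ≤ R * ex lam 2 :=
    hre.trans (mul_le_mul_of_nonneg_right hrR (Nat.cast_nonneg _))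
  calc (a : ℝ) * b = 4 * (C1 + 1) * U := hU1.symm
    _ ≤ 4 * (C1 + 1) * (R * ex lam 2) := mul_le_mul_of_nonneg_left hre2 (by positivity)
    _ = 4 * (C1 + 1) * R * (ex lam 2 : ℝ) := by ring

lemma cube_le {a b x K : ℝ} (ha : 0 < a) (hab : a ≤ b) (hx : 0 ≤ x) (hK : 0 < K)
    (hKa : K ^ 3 ≤ a) (h : a * b ≤ K * x) : a ^ (5 / 3 : ℝ) ≤ x := by
  have h1 : (a ^ (5 / 3 : ℝ)) ^ 3 = a ^ 5 := by
    rw [← Real.rpow_natCast, ← Real.rpow_mul ha.le, ← Real.rpow_natCast]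
    norm_num
  have h2 : a ^ 2 ≤ K * x := by
    refine le_trans ?_ h
    rw [sq]
    exact mul_le_mul_of_nonneg_left hab ha.le
  have h3 : (a ^ 2) ^ 3 ≤ (K * x) ^ 3 := pow_le_pow_left₀ (by positivity) h2 3
  have h4 : (K * x) ^ 3 ≤ a * x ^ 3 := by
    rw [mul_pow]
    exact mul_le_mul_of_nonneg_right hKa (by positivity)
  have h5 : a * a ^ 5 ≤ a * x ^ 3 := by
    calc a * a ^ 5 = (a ^ 2) ^ 3 := by ring
      _ ≤ _ := h3.trans h4
  have h6 : a ^ 5 ≤ x ^ 3 := le_of_mul_le_mul_left h5 ha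
  rw [← h1] at h6
  exact (pow_le_pow_iff_left₀ (by positivity) hx (by norm_num)).1 h6

theorem linFull_of_third (hD : LinD) (hT : ThirdL) (hF : FatL) (hP : PolyS) : LinFull := by
  intro θ hθ
  obtain ⟨C1, c1, hC1, h1⟩ := hD θ hθ
  obtain ⟨C2, c2, hC2, h2⟩ := hF
  obtain ⟨C0, hC0⟩ : ∃ C0 : ℝ, C0 = 2 * C2 + 5 := ⟨_, rfl⟩
  have hC0p : 5 ≤ C0 := by linarith
  obtain ⟨A0, h4⟩ := hT
  obtain ⟨A1, hA⟩ := polylog_le ((4 * (C1 + 1) * C0) ^ 3) (3 * c2)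
  obtain ⟨A, hAd⟩ : ∃ A : ℕ, A = A0 + A1 + 1 := ⟨_, rfl⟩
  obtain ⟨C5, hC5, h5⟩ := small_a hP A
  refine ⟨6 + C1 + C5, c1, by positivity, fun a b hab n lam hor => ?_⟩
  by_cases hz : plethMult a b n lam = 0
  · rw [hz]
    exact Nat.zero_le _
  obtain ⟨hl, hs, _⟩ := H530.zero_stmt a b n lam hz
  have ha0 : (0 : ℝ) ≤ a := Nat.cast_nonneg a
  have g1 : C1 * a ≤ b := le_trans (mul_le_mul_of_nonneg_right (by linarith) ha0) hab
  have g6 : (6 : ℝ) * a ≤ b := le_trans (mul_le_mul_of_nonneg_right (by linarith) ha0) hab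
  have g2 : (2 : ℝ) * a ≤ b := by linarith
  have g5 : C5 * a ≤ b := le_trans (mul_le_mul_of_nonneg_right (by linarith) ha0) hab
  have habR : (a : ℝ) ≤ b := by linarith
  have hab1 : a ≤ b := by exact_mod_cast habR
  have hL := one_le_L a
  rcases Nat.lt_or_ge a A with haA | haA
  · exact h5 a b haA g5 n lam
  have hsm := hA a (by omega)
  have hap : (0 : ℝ) < a := by exact_mod_cast (by omega : 0 < a)
  have hb1 : 0 < b := by omega
  have hbp : (0 : ℝ) < b := by exact_mod_cast hb1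
  by_cases hd : C1 * (dn lam 2 : ℝ) ≤ a * b
  · refine h1 a b g1 n lam hd ?_
    have hm : C1 * (1 + Real.log a) ^ c1 ≤ (6 + C1 + C5) * (1 + Real.log a) ^ c1 :=
      pow_mono_c hL hC1.le (by linarith) le_rfl
    rcases hor with h | h | h | h
    · exact Or.inl h
    · exact Or.inr (Or.inl
        (le_trans (mul_le_mul_of_nonneg_right hm (Nat.cast_nonneg _)) h))
    · exact Or.inr (Or.inr (Or.inl (le_trans (mul_le_mul_of_nonneg_right hm ha0) h)))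
    · exact Or.inr (Or.inr (Or.inr h))
  rw [not_le] at hd
  by_cases hfat : C2 * (1 + Real.log a) ^ c2 * (b : ℝ) ^ 2 ≤
      ((b : ℝ) - a) * ∑ i, ((min b (lam i) : ℕ) : ℝ)
  · exact h2 a b n lam hab1 hfat
  rw [not_le, min_range] at hfat
  obtain ⟨T, hT⟩ : ∃ T : ℝ, T = 1 + Real.log a := ⟨_, rfl⟩
  rw [← hT] at hL hsm hfat
  have hTc : 1 ≤ T ^ c2 := one_le_pow₀ hL
  have hR5 : 5 ≤ C0 * T ^ c2 :=
    le_trans hC0p (le_mul_of_one_le_right (by linarith) hTc)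
  have hRC : 2 * (C2 * T ^ c2) ≤ C0 * T ^ c2 := by
    have : 2 * C2 * T ^ c2 ≤ C0 * T ^ c2 :=
      mul_le_mul_of_nonneg_right (by linarith) (by linarith)
    linarith
  obtain ⟨K, hK⟩ : ∃ K : ℝ, K = 4 * (C1 + 1) * (C0 * T ^ c2) := ⟨_, rfl⟩
  have hK1 : 1 ≤ K := by
    rw [hK]
    have : 1 * 5 ≤ 4 * (C1 + 1) * (C0 * T ^ c2) :=
      mul_le_mul (by linarith) hR5 (by norm_num) (by linarith)
    linarith
  have hK3 : K ^ 3 ≤ a := by
    have e0 : K ^ 3 = (4 * (C1 + 1) * C0) ^ 3 * T ^ (3 * c2) := by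
      rw [hK]
      ring
    rw [e0]
    exact hsm
  have hKa : 4 * (C1 + 1) * (C0 * T ^ c2) ≤ a := by
    rw [← hK]
    exact (le_self_pow₀ hK1 (by norm_num)).trans hK3
  have hSR := two_mul_lt hbp (Nat.cast_nonneg _) g2 hfat hRC
  have hbig := ex2_big hl hC1 hR5 hKa hb1 hSR hd
  rw [← hK] at hbig
  refine h4 a b n lam (by omega) (by exact_mod_cast g6) ?_
  exact cube_le hap habR (Nat.cast_nonneg _) (by linarith) hK3 hbig

end Vale.Agent.P181.LF
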