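import Vale.Agent.P181.LF.Union3

set_option autoImplicit false

/-!
# P181, LF: `b ≥ (1 + δ) a`, at least `a ^ (5 / 3)` polylog cells below row two

From `ThirdLongD` (a long third row), `FatLog` and `PolyS`.
-/

open Finset

namespace Vale.Agent.P181.LF

open Vale.Agent.P181.H280 (plethMult)
open Vale.Agent.P181.T4 (ex)
open Vale.Agent.P181.PL (dn PolyS)

/-- `MD.H514.ThirdLongD`. -/
def ThirdLD : Prop := ∀ δ : ℝ, 0 < δ → ∃ a0 : ℕ, ∀ (a b n : ℕ) (lam : Fin n → ℕ), a0 ≤ a →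
  (1 + δ) * a ≤ b → (a : ℝ) ^ (5 / 3 : ℝ) ≤ ex lam 2 → plethMult a b n lam ≤ plethMult b a n lam

/-- At least `a ^ (5 / 3)` polylog cells below row two. -/
def NearD : Prop := ∀ δ : ℝ, 0 < δ → ∃ (C : ℝ) (c : ℕ), 0 < C ∧ ∀ a b : ℕ, (1 + δ) * a ≤ b →
  ∀ (n : ℕ) (lam : Fin n → ℕ),
  C * (1 + Real.log a) ^ c * (a : ℝ) ^ (5 / 3 : ℝ) ≤ (dn lam 2 : ℝ) →
  plethMult a b n lam ≤ plethMult b a n lam

lemma div_lt' {T' a b S C δ : ℝ} (hb : 0 < b) (hδ : 0 < δ) (hδ1 : δ ≤ 1) (hS0 : 0 ≤ S)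
    (h2 : (1 + δ) * a ≤ b) (h : (b - a) * S < C * b ^ 2) (hC : 2 * C ≤ δ * T') : S < T' * b := by
  have hba : a ≤ b := by
    by_contra hc
    rw [not_le] at hc
    have := mul_pos hδ (hb.trans hc)
    linarith
  have e0 : δ * b ≤ 2 * (b - a) := by
    have := mul_nonneg (sub_nonneg.2 hδ1) (sub_nonneg.2 hba)
    linarith
  have e1 : δ * b * S ≤ 2 * (b - a) * S := mul_le_mul_of_nonneg_right e0 hS0
  have e2 : b * (δ * S) < b * (2 * C * b) := by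
    have : b * (2 * C * b) = 2 * (C * b ^ 2) := by ring
    rw [this]
    nlinarith
  have e3 : δ * S < 2 * C * b := lt_of_mul_lt_mul_left e2 hb.le
  have e4 : 2 * C * b ≤ δ * T' * b := mul_le_mul_of_nonneg_right hC hb.le
  have e5 : δ * S < δ * (T' * b) := by
    calc δ * S < 2 * C * b := e3
      _ ≤ δ * T' * b := e4
      _ = δ * (T' * b) := by ring
  exact lt_of_mul_lt_mul_left e5 hδ.le

lemma dn_le_sum {n : ℕ} (lam : Fin n → ℕ) (k : ℕ) : dn lam k ≤ ∑ i, lam i := by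
  unfold dn
  refine sum_le_sum fun i _ => ?_
  split_ifs
  · exact le_rfl
  · exact Nat.zero_le _

/-- If the shape is not fat, the tail is at most `R` rows of the length of row three, and `R b`. -/
lemma dn_two_le {b n : ℕ} {lam : Fin n → ℕ} (hl : Antitone lam) {R : ℝ}
    (hR5 : 5 ≤ R) (hb1 : 0 < b)
    (hS : ((∑ j ∈ range n, min b (ex lam j) : ℕ) : ℝ) < R * b) :
    (dn lam 2 : ℝ) ≤ R * (ex lam 2 : ℝ) + R * b := by
  have hbp : (0 : ℝ) < b := by exact_mod_cast hb1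
  obtain ⟨S, hS'⟩ : ∃ S : ℕ, S = ∑ j ∈ range n, min b (ex lam j) := ⟨_, rfl⟩
  rw [← hS'] at hS
  obtain ⟨N, hN⟩ : ∃ N : ℕ, N = ⌊R⌋₊ := ⟨_, rfl⟩
  have hN1 : (N : ℝ) ≤ R := by
    rw [hN]
    exact Nat.floor_le (by linarith)
  have hN2 : R < N + 1 := by
    rw [hN]
    exact Nat.lt_floor_add_one R
  have hN5 : 5 ≤ N := by
    rw [hN]
    exact Nat.le_floor (by exact_mod_cast hR5)
  rcases fat_alt hl b N hb1 with hf | ⟨hf, hfN⟩
  · exfalso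
    rw [← hS'] at hf
    have e1 : (b : ℝ) * (N + 1) ≤ S := by exact_mod_cast hf
    have e2 : R * b < (N + 1) * b := mul_lt_mul_of_pos_right hN2 hbp
    linarith
  rw [← hS'] at hf
  obtain ⟨r, hr⟩ : ∃ r, N = 2 + r := ⟨N - 2, by omega⟩
  have hrR : (r : ℝ) ≤ R := by
    have : (r : ℝ) ≤ N := by exact_mod_cast (by omega : r ≤ N)
    linarith
  have hrows : (dn lam 2 : ℝ) ≤ r * ex lam 2 + dn lam N := by
    have := dn_le_rows hl 2 r
    rw [← hr] at this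
    exact_mod_cast this
  have hdnN : (dn lam N : ℝ) ≤ S := by exact_mod_cast hf
  have h1 : (r : ℝ) * ex lam 2 ≤ R * ex lam 2 :=
    mul_le_mul_of_nonneg_right hrR (Nat.cast_nonneg _)
  linarith

theorem nearD_of (hT : ThirdLD) (hF : FatL) (hFew : FewA) (hP : PolyS) : NearD := by
  intro δ0 hδ0
  obtain ⟨δ, hδd⟩ : ∃ δ : ℝ, δ = min δ0 1 := ⟨_, rfl⟩
  have hδ : 0 < δ := by
    rw [hδd]
    exact lt_min hδ0 one_pos
  have hδ1 : δ ≤ 1 := by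
    rw [hδd]
    exact min_le_right _ _
  have hδ2 : δ ≤ δ0 := by
    rw [hδd]
    exact min_le_left _ _
  obtain ⟨a0, h1⟩ := hT δ hδ
  obtain ⟨C2, c2, hC2, h2⟩ := hF
  obtain ⟨C3, c3, hC3, h3⟩ := id hP
  obtain ⟨CA, hCA, h5⟩ := small_a hP (a0 + 1)
  obtain ⟨C0, hC0⟩ : ∃ C0 : ℝ, C0 = 2 * C2 / δ + 5 := ⟨_, rfl⟩
  have hC0p : 5 ≤ C0 := by
    rw [hC0]
    have : 0 ≤ 2 * C2 / δ := by positivity
    linarith
  have hC0' : 2 * C2 ≤ δ * C0 := by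
    rw [hC0]
    have : δ * (2 * C2 / δ + 5) = 2 * C2 + 5 * δ := by
      field_simp
    rw [this]
    linarith
  refine ⟨C0 + C0 * C3 + CA * (a0 + 1 : ℝ) ^ 2 + 1, c2 + c3, by positivity,
    fun a b hab0 n lam hor => ?_⟩
  obtain ⟨Q, hQ⟩ : ∃ Q : ℝ, Q = C0 + C0 * C3 + CA * (a0 + 1 : ℝ) ^ 2 + 1 := ⟨_, rfl⟩
  rw [← hQ] at hor
  by_cases hz : plethMult a b n lam = 0
  · rw [hz]
    exact Nat.zero_le _
  obtain ⟨hl, hs, _⟩ := H530.zero_stmt a b n lam hz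
  have ha0 : (0 : ℝ) ≤ a := Nat.cast_nonneg a
  have hab2 : (1 + δ) * a ≤ b :=
    le_trans (mul_le_mul_of_nonneg_right (by linarith) ha0) hab0
  have habR : (a : ℝ) ≤ b := by nlinarith
  have hab1 : a ≤ b := by exact_mod_cast habR
  have hL := one_le_L a
  have hdn := dn_le_sum lam 2
  rw [hs] at hdn
  rcases Nat.eq_zero_or_pos a with ha | ha
  · refine hFew a b n lam hab1 ?_
    subst ha
    rw [Nat.zero_mul] at hdn
    omega
  have ha1 : (1 : ℝ) ≤ a := by exact_mod_cast ha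
  have hb1 : 0 < b := by omega
  have hbp : (0 : ℝ) < b := by exact_mod_cast hb1
  obtain ⟨T, hT⟩ : ∃ T : ℝ, T = 1 + Real.log a := ⟨_, rfl⟩
  obtain ⟨x, hx⟩ : ∃ x : ℝ, x = (a : ℝ) ^ (5 / 3 : ℝ) := ⟨_, rfl⟩
  have hx1 : (a : ℝ) ≤ x := by
    rw [hx]
    calc (a : ℝ) = (a : ℝ) ^ (1 : ℝ) := (Real.rpow_one _).symm
      _ ≤ (a : ℝ) ^ (5 / 3 : ℝ) := Real.rpow_le_rpow_of_exponent_le ha1 (by norm_num)
  rw [← hT, ← hx] at hor
  rw [← hT] at hL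
  have hT1 : 1 ≤ T ^ (c2 + c3) := one_le_pow₀ hL
  have hT2 : 1 ≤ T ^ c2 := one_le_pow₀ hL
  have hT3 : 1 ≤ T ^ c3 := one_le_pow₀ hL
  have hQ0 : 0 < Q := by
    rw [hQ]
    positivity
  rcases Nat.lt_or_ge a (a0 + 1) with haA | haA
  · by_cases hbA : CA * a ≤ b
    · exact h5 a b haA hbA n lam
    exfalso
    rw [not_le] at hbA
    have e1 : (dn lam 2 : ℝ) ≤ a * b := by exact_mod_cast hdn
    have e2 : (a : ℝ) ≤ a0 + 1 := by exact_mod_cast haA.le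
    have e3 : (a : ℝ) * b ≤ a * (CA * a) := mul_le_mul_of_nonneg_left hbA.le ha0
    have e4 : (a : ℝ) ^ 2 ≤ (a0 + 1 : ℝ) ^ 2 := pow_le_pow_left₀ ha0 e2 2
    have e5 : CA * (a : ℝ) ^ 2 ≤ CA * (a0 + 1 : ℝ) ^ 2 := mul_le_mul_of_nonneg_left e4 hCA.le
    have e6 : Q ≤ Q * T ^ (c2 + c3) * x := by
      have e7 : Q * 1 ≤ Q * T ^ (c2 + c3) := mul_le_mul_of_nonneg_left hT1 hQ0.le
      have e8 : Q * T ^ (c2 + c3) * 1 ≤ Q * T ^ (c2 + c3) * x :=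
        mul_le_mul_of_nonneg_left (ha1.trans hx1) (by positivity)
      linarith
    have e9 : CA * (a0 + 1 : ℝ) ^ 2 + 1 ≤ Q := by
      rw [hQ]
      have : 0 ≤ C0 * C3 := by positivity
      linarith
    nlinarith
  by_cases hbig : C3 * a * (1 + Real.log a) ^ c3 ≤ b
  · exact h3 a b hbig n lam
  rw [not_le, ← hT] at hbig
  by_cases hfat : C2 * (1 + Real.log a) ^ c2 * (b : ℝ) ^ 2 ≤
      ((b : ℝ) - a) * ∑ i, ((min b (lam i) : ℕ) : ℝ)
  · exact h2 a b n lam hab1 hfat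
  rw [not_le, min_range, ← hT] at hfat
  have hR5 : 5 ≤ C0 * T ^ c2 :=
    le_trans hC0p (le_mul_of_one_le_right (by linarith) hT2)
  have hRC : 2 * (C2 * T ^ c2) ≤ δ * (C0 * T ^ c2) := by
    have : 2 * C2 * T ^ c2 ≤ δ * C0 * T ^ c2 :=
      mul_le_mul_of_nonneg_right hC0' (by linarith)
    linarith
  have hSR := div_lt' hbp hδ hδ1 (Nat.cast_nonneg _) hab2 hfat hRC
  have hD := dn_two_le hl hR5 hb1 hSR
  refine h1 a b n lam (by omega) hab2 ?_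
  rw [← hx]
  have hRp : 0 < C0 * T ^ c2 := by linarith
  have g1 : C0 * T ^ c2 * (b : ℝ) ≤ C0 * C3 * T ^ (c2 + c3) * x := by
    calc C0 * T ^ c2 * (b : ℝ) ≤ C0 * T ^ c2 * (C3 * a * T ^ c3) :=
          mul_le_mul_of_nonneg_left hbig.le hRp.le
      _ = C0 * C3 * T ^ (c2 + c3) * a := by
          rw [pow_add]
          ring
      _ ≤ C0 * C3 * T ^ (c2 + c3) * x :=
          mul_le_mul_of_nonneg_left hx1 (by positivity)
  have hx0 : 0 ≤ x := by linarith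
  have g2 : (C0 + C0 * C3) * T ^ (c2 + c3) * x ≤ Q * T ^ (c2 + c3) * x := by
    refine mul_le_mul_of_nonneg_right (mul_le_mul_of_nonneg_right ?_ (by linarith)) hx0
    rw [hQ]
    have : 0 ≤ CA * (a0 + 1 : ℝ) ^ 2 := by positivity
    linarith
  have g3 : C0 * T ^ c2 * x ≤ C0 * T ^ (c2 + c3) * x := by
    refine mul_le_mul_of_nonneg_right (mul_le_mul_of_nonneg_left ?_ (by linarith)) hx0
    rw [pow_add]
    exact le_mul_of_one_le_right (by linarith) hT3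
  have g4 : C0 * T ^ c2 * x ≤ C0 * T ^ c2 * (ex lam 2 : ℝ) := by
    have e1 : (C0 + C0 * C3) * T ^ (c2 + c3) * x =
        C0 * T ^ (c2 + c3) * x + C0 * C3 * T ^ (c2 + c3) * x := by ring
    linarith
  exact le_of_mul_le_mul_left g4 hRp

end Vale.Agent.P181.LF
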