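import Vale.Agent.P181.LF.NearU

set_option autoImplicit false

/-!
# P181, LF: `NearU` for `a ≤ b`
-/

namespace Vale.Agent.P181.LF

open Vale.Agent.P181.H280 (plethMult)
open Vale.Agent.P181.PL (dn PolyS)

/-- `NearU` for `a ≤ b`. -/
def NearUni : Prop := ∃ C : ℝ, 0 < C ∧ ∀ a b : ℕ, a ≤ b → ∀ (n : ℕ) (lam : Fin n → ℕ),
  C * b * Real.log (2 + Real.log a) ≤ ((b : ℝ) - a) * Real.log ((PL.dn lam 2 : ℝ) / a) →
  plethMult a b n lam ≤ plethMult b a n lam

theorem nearUni_of (h : NearU) : NearUni := by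
  obtain ⟨C, hC, h⟩ := h
  refine ⟨C, hC, fun a b hab n lam hor => ?_⟩
  rcases Nat.lt_or_ge a b with h1 | h1
  · exact h a b h1 n lam hor
  · obtain rfl : a = b := Nat.le_antisymm hab h1
    exact le_rfl

theorem nearUni (hP : NearP) (hV : NearV) (hS : PolyS) : NearUni :=
  nearUni_of (nearU_of hP hV hS)

end Vale.Agent.P181.LF
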