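import Vale.Agent.P181.BL.DefsJ
import Vale.Agent.P181.H530.Zero

set_option autoImplicit false

/-!
# P181, LF: the union for `b ≥ C a`

`LinD` (tail at most `a b / C`) from `LinAll` and `BAL.TwoLongD`; `LinFull` from `LinD`, the
theorem for a gap below at least three rows (`GapM`) and `FatLog`.
-/

open Finset

namespace Vale.Agent.P181.LF

open Vale.Agent.P181.H280 (plethMult)
open Vale.Agent.P181.T4 (ex)
open Vale.Agent.P181.PL (dn PolyS)
open Vale.Agent.P181.BL (LinAll)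

/-- `BAL.TwoLongD`. -/
def TwoD : Prop := ∀ θ : ℝ, 0 < θ → ∃ C : ℝ, 0 < C ∧ ∀ (a b k : ℕ) (lam : Fin (k + 3) → ℕ),
  Antitone lam → ∑ i, lam i = a * b → C * a ≤ b → (lam 2 : ℝ) + θ * (a : ℝ) ^ 2 ≤ lam 1 →
  C * (TL.dn2 lam : ℝ) ≤ a * b →
  plethMult a b (k + 3) lam ≤ plethMult b a (k + 3) lam

/-- Few boxes below row two (`DX.X924.few_all`). -/
def FewA : Prop := ∀ (a b n : ℕ) (lam : Fin n → ℕ), a ≤ b → dn lam 2 + a ≤ b + 1 →
  plethMult a b n lam ≤ plethMult b a n lam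

/-- `FD.FatLog`. -/
def FatL : Prop := ∃ (C : ℝ) (c : ℕ), 0 < C ∧ ∀ (a b n : ℕ) (lam : Fin n → ℕ), a ≤ b →
  C * (1 + Real.log a) ^ c * (b : ℝ) ^ 2 ≤ ((b : ℝ) - a) * ∑ i, ((min b (lam i) : ℕ) : ℝ) →
  plethMult a b n lam ≤ plethMult b a n lam

/-- A gap `≥ a ^ 2 / polylog` below at least three and at most polylog rows. -/
def GapM : Prop := ∀ (P : ℝ) (p : ℕ), 0 < P → ∃ C : ℝ, ∀ a b : ℕ, C * a ≤ b →
  (b : ℝ) ≤ P * (1 + Real.log a) ^ p * a → ∀ (n : ℕ) (lam : Fin n → ℕ),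
  Antitone lam → ∑ i, lam i = a * b → ∀ i : ℕ, 2 ≤ i → (i : ℝ) ≤ P * (1 + Real.log a) ^ p →
  (a : ℝ) ^ 2 ≤ P * (1 + Real.log a) ^ p * ((ex lam i : ℝ) - ex lam (i + 1)) →
  plethMult a b n lam ≤ plethMult b a n lam

/-- The tail below row two is at most `a b / C`. -/
def LinD : Prop := ∀ θ : ℝ, 0 < θ → ∃ (C : ℝ) (c : ℕ), 0 < C ∧ ∀ a b : ℕ, C * a ≤ b →
  ∀ (n : ℕ) (lam : Fin n → ℕ), C * (dn lam 2 : ℝ) ≤ a * b →
  (θ * (a : ℝ) ^ 2 ≤ (ex lam 1 : ℝ) ∨
    C * (1 + Real.log a) ^ c * (dn lam 1 : ℝ) ≤ (a : ℝ) ^ 2 ∨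
    C * (1 + Real.log a) ^ c * a ≤ (dn lam 2 : ℝ) ∨ a + dn lam 2 ≤ b + 1) →
  plethMult a b n lam ≤ plethMult b a n lam

/-- Every shape except `a ^ 2 / polylog < λ_2 < θ a ^ 2`, `b - a + 1 < D_2 < a polylog`. -/
def LinFull : Prop := ∀ θ : ℝ, 0 < θ → ∃ (C : ℝ) (c : ℕ), 0 < C ∧ ∀ a b : ℕ, C * a ≤ b →
  ∀ (n : ℕ) (lam : Fin n → ℕ),
  (θ * (a : ℝ) ^ 2 ≤ (ex lam 1 : ℝ) ∨
    C * (1 + Real.log a) ^ c * (dn lam 1 : ℝ) ≤ (a : ℝ) ^ 2 ∨
    C * (1 + Real.log a) ^ c * a ≤ (dn lam 2 : ℝ) ∨ a + dn lam 2 ≤ b + 1) →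
  plethMult a b n lam ≤ plethMult b a n lam

/-! ### Preparations -/

lemma one_le_L (a : ℕ) : (1 : ℝ) ≤ 1 + Real.log a := by
  linarith [Real.log_natCast_nonneg a]

/-- Polylogarithms are at most linear. -/
lemma polylog_le (K : ℝ) (c : ℕ) :
    ∃ A : ℕ, ∀ a : ℕ, A ≤ a → K * (1 + Real.log a) ^ c ≤ a := by
  have h1 := Real.isLittleO_pow_log_id_atTop (n := c)
  have h2 : (fun x : ℝ => (1 + Real.log x) ^ c) =o[Filter.atTop] (fun x : ℝ => x) := by
    have h3 : (fun x : ℝ => (1 + Real.log x) ^ c) =O[Filter.atTop]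
        (fun x : ℝ => Real.log x ^ c) := by
      refine Asymptotics.IsBigO.of_bound (2 ^ c) ?_
      filter_upwards [Filter.eventually_ge_atTop (Real.exp 1)] with x hx
      have h4 : 1 ≤ Real.log x := by
        rw [Real.le_log_iff_exp_le (lt_of_lt_of_le (Real.exp_pos 1) hx)]
        exact hx
      rw [Real.norm_of_nonneg (by positivity), Real.norm_of_nonneg (by positivity), ← mul_pow]
      exact pow_le_pow_left₀ (by linarith) (by linarith) c
    exact h3.trans_isLittleO h1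
  have h5 := h2.bound (c := 1 / (|K| + 1)) (by positivity)
  have h6 := (tendsto_natCast_atTop_atTop (R := ℝ)).eventually h5
  obtain ⟨A, hA⟩ := Filter.eventually_atTop.1 h6
  refine ⟨A, fun a ha => ?_⟩
  have h7 := hA a ha
  have hL := one_le_L a
  have h8 : (0 : ℝ) ≤ (1 + Real.log a) ^ c := by positivity
  rw [Real.norm_of_nonneg h8, Real.norm_of_nonneg (Nat.cast_nonneg a)] at h7
  have h9 : (|K| + 1) * (1 + Real.log a) ^ c ≤ a := by
    have h10 : (0 : ℝ) < |K| + 1 := by positivity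
    calc (|K| + 1) * (1 + Real.log a) ^ c ≤ (|K| + 1) * (1 / (|K| + 1) * a) :=
          mul_le_mul_of_nonneg_left h7 h10.le
      _ = a := by field_simp
  calc K * (1 + Real.log a) ^ c ≤ (|K| + 1) * (1 + Real.log a) ^ c :=
        mul_le_mul_of_nonneg_right (by linarith [le_abs_self K]) h8
    _ ≤ a := h9

/-- Bounded `a`: `PolyS` with a constant. -/
lemma small_a (hP : PolyS) (A : ℕ) : ∃ C : ℝ, 0 < C ∧ ∀ a b : ℕ, a < A → C * a ≤ b →
    ∀ (n : ℕ) (lam : Fin n → ℕ), plethMult a b n lam ≤ plethMult b a n lam := by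
  obtain ⟨C, c, hC, h⟩ := hP
  refine ⟨C * (1 + Real.log A) ^ c, by have := one_le_L A; positivity, fun a b ha hab n lam => ?_⟩
  refine h a b (le_trans ?_ hab) n lam
  rcases Nat.eq_zero_or_pos a with h0 | h0
  · subst h0
    simp
  · have h1 : Real.log a ≤ Real.log A :=
      Real.log_le_log (by exact_mod_cast h0) (by exact_mod_cast ha.le)
    have h2 : (1 + Real.log a) ^ c ≤ (1 + Real.log A) ^ c :=
      pow_le_pow_left₀ (by linarith [one_le_L a]) (by linarith) c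
    calc C * a * (1 + Real.log a) ^ c ≤ C * a * (1 + Real.log A) ^ c :=
          mul_le_mul_of_nonneg_left h2 (by positivity)
      _ = C * (1 + Real.log A) ^ c * a := by ring

lemma ex_anti {n : ℕ} {lam : Fin n → ℕ} (h : Antitone lam) : Antitone (ex lam) := by
  intro i j hij
  unfold ex
  by_cases hj : j < n
  · rw [dif_pos hj, dif_pos (lt_of_le_of_lt hij hj)]
    exact h hij
  · rw [dif_neg hj]
    exact Nat.zero_le _

lemma ex_coe {n : ℕ} (lam : Fin n → ℕ) (i : Fin n) : ex lam (i : ℕ) = lam i := by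
  unfold ex
  rw [dif_pos i.isLt]

lemma ex_zero {n : ℕ} (lam : Fin n → ℕ) {j : ℕ} (h : n ≤ j) : ex lam j = 0 := by
  unfold ex
  rw [dif_neg (by omega)]

lemma dn_range {n : ℕ} (lam : Fin n → ℕ) (k : ℕ) :
    dn lam k = ∑ j ∈ range n, if k ≤ j then ex lam j else 0 := by
  rw [Finset.sum_range]
  unfold dn
  exact sum_congr rfl fun i _ => by rw [ex_coe]

lemma min_range {n : ℕ} (lam : Fin n → ℕ) (b : ℕ) :
    ∑ i, ((min b (lam i) : ℕ) : ℝ) = ((∑ j ∈ range n, min b (ex lam j) : ℕ) : ℝ) := by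
  rw [Finset.sum_range]
  push_cast
  exact sum_congr rfl fun i _ => by rw [ex_coe]

lemma dn_succ {n : ℕ} (lam : Fin n → ℕ) (k : ℕ) : dn lam k = ex lam k + dn lam (k + 1) := by
  rw [dn_range, dn_range]
  by_cases hk : k < n
  · have h1 : ex lam k = ∑ j ∈ range n, if j = k then ex lam j else 0 := by
      rw [Finset.sum_ite_eq' (range n) k (fun j => ex lam j), if_pos (mem_range.2 hk)]
    rw [h1, ← sum_add_distrib]
    refine sum_congr rfl fun j _ => ?_
    by_cases h2 : j = k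
    · rw [if_pos (by omega), if_pos h2, if_neg (by omega), add_zero]
    · by_cases h3 : k ≤ j
      · rw [if_pos h3, if_neg h2, if_pos (by omega), zero_add]
      · rw [if_neg h3, if_neg h2, if_neg (by omega)]
  · rw [ex_zero lam (by omega), zero_add]
    refine sum_congr rfl fun j hj => ?_
    have := mem_range.1 hj
    rw [if_neg (by omega), if_neg (by omega)]

/-- The first alternative: `R + 1` rows are at least `b`; the second: the rows from `R` on are
short. -/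
lemma fat_alt {n : ℕ} {lam : Fin n → ℕ} (hl : Antitone lam) (b R : ℕ) (hb : 0 < b) :
    b * (R + 1) ≤ ∑ j ∈ range n, min b (ex lam j) ∨
      (dn lam R ≤ ∑ j ∈ range n, min b (ex lam j) ∧ ex lam R < b) := by
  have ha := ex_anti hl
  rcases Nat.lt_or_ge (ex lam R) b with h | h
  · right
    refine ⟨?_, h⟩
    rw [dn_range]
    refine sum_le_sum fun j _ => ?_
    by_cases h1 : R ≤ j
    · rw [if_pos h1, Nat.min_eq_right]
      exact (ha h1).trans h.le
    · rw [if_neg h1]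
      exact Nat.zero_le _
  · left
    have hR : R < n := by
      by_contra h1
      rw [ex_zero lam (by omega)] at h
      omega
    calc b * (R + 1) = ∑ j ∈ range (R + 1), b := by
          rw [sum_const, card_range, smul_eq_mul, mul_comm]
      _ ≤ ∑ j ∈ range (R + 1), min b (ex lam j) := by
          refine sum_le_sum fun j hj => ?_
          have h2 := mem_range.1 hj
          exact le_min le_rfl (h.trans (ha (by omega)))
      _ ≤ ∑ j ∈ range n, min b (ex lam j) :=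
          sum_le_sum_of_subset (range_subset_range.2 (by omega))

lemma dn_le_rows {n : ℕ} {lam : Fin n → ℕ} (hl : Antitone lam) (k R : ℕ) :
    dn lam k ≤ R * ex lam k + dn lam (k + R) := by
  induction R with
  | zero => simp
  | succ R ih =>
    have h1 := dn_succ lam (k + R)
    have h2 : ex lam (k + R) ≤ ex lam k := ex_anti hl (by omega)
    have h3 : k + (R + 1) = k + R + 1 := by omega
    rw [h3]
    have h4 : (R + 1) * ex lam k = R * ex lam k + ex lam k := by ring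
    omega

lemma exists_gap (f : ℕ → ℝ) (δ : ℝ) (k r : ℕ) (h : r * δ < f k - f (k + r)) :
    ∃ i, k ≤ i ∧ i < k + r ∧ δ ≤ f i - f (i + 1) := by
  by_contra hcon
  push Not at hcon
  have h1 : ∀ j : ℕ, j ≤ r → f k - f (k + j) ≤ j * δ := by
    intro j
    induction j with
    | zero => intro _; simp
    | succ j ih =>
      intro hj
      have h2 := ih (by omega)
      have h3 := hcon (k + j) (by omega) (by omega)
      push_cast
      have h4 : k + (j + 1) = k + j + 1 := by omega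
      rw [h4]
      linarith
  linarith [h1 r le_rfl]

/-! ### The tail is at most `a b / C` -/

lemma pow_mono_c {L : ℝ} (hL : 1 ≤ L) {C1 C2 : ℝ} (h1 : 0 ≤ C1) (hC : C1 ≤ C2) {c1 c2 : ℕ}
    (hc : c1 ≤ c2) : C1 * L ^ c1 ≤ C2 * L ^ c2 :=
  mul_le_mul hC (pow_le_pow_right₀ hL hc) (by positivity) (h1.trans hC)

/-- `TwoD` for every `n`. -/
lemma two_app {θ C : ℝ} (hFew : FewA)
    (h : ∀ (a b k : ℕ) (lam : Fin (k + 3) → ℕ),
      Antitone lam → ∑ i, lam i = a * b → C * a ≤ b → (lam 2 : ℝ) + θ * (a : ℝ) ^ 2 ≤ lam 1 →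
      C * (TL.dn2 lam : ℝ) ≤ a * b → plethMult a b (k + 3) lam ≤ plethMult b a (k + 3) lam)
    {a b n : ℕ} (lam : Fin n → ℕ) (hab : a ≤ b) (hl : Antitone lam) (hs : ∑ i, lam i = a * b)
    (h1 : C * a ≤ b) (h2 : (ex lam 2 : ℝ) + θ * (a : ℝ) ^ 2 ≤ ex lam 1)
    (h3 : C * (dn lam 2 : ℝ) ≤ a * b) : plethMult a b n lam ≤ plethMult b a n lam := by
  rcases Nat.lt_or_ge n 3 with hn | hn
  · by_cases h0 : dn lam 2 = 0
    · exact hFew a b n lam hab (by omega)
    · exfalso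
      apply h0
      rw [dn_range]
      refine sum_eq_zero fun j hj => ?_
      have := mem_range.1 hj
      rw [if_neg (by omega)]
  · obtain ⟨k, rfl⟩ : ∃ k, n = k + 3 := ⟨n - 3, by omega⟩
    have e2 : ex lam 2 = lam 2 := ex_coe lam 2
    have e1 : ex lam 1 = lam 1 := ex_coe lam 1
    have e3 : TL.dn2 lam = dn lam 2 := by
      unfold TL.dn2 dn
      conv_rhs => rw [Fin.sum_univ_succ, Fin.sum_univ_succ]
      simp
    refine h a b k lam hl hs h1 ?_ ?_
    · rw [← e2, ← e1]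
      exact h2
    · rw [e3]
      exact h3

theorem linD_of (hA : LinAll) (hD : TwoD) (hFew : FewA) (hP : PolyS) : LinD := by
  intro θ hθ
  obtain ⟨C1, c1, hC1, h1⟩ := hA
  obtain ⟨θ', hθ'⟩ : ∃ θ' : ℝ, θ' = min (θ / 2) (3 / 1000) := ⟨_, rfl⟩
  have hθ0 : 0 < θ' := by
    rw [hθ']
    exact lt_min (by linarith) (by norm_num)
  have hθ1 : θ' ≤ θ / 2 := by
    rw [hθ']
    exact min_le_left _ _
  have hθ2 : θ' ≤ 3 / 1000 := by
    rw [hθ']
    exact min_le_right _ _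
  obtain ⟨C2, hC2, h2⟩ := hD θ' hθ0
  obtain ⟨A, hA⟩ := polylog_le (2 * C1 / θ) c1
  obtain ⟨C3, hC3, h3⟩ := small_a hP A
  refine ⟨1000 + C1 + C2 + C3, c1, by positivity, fun a b hab n lam hd hor => ?_⟩
  by_cases hz : plethMult a b n lam = 0
  · rw [hz]
    exact Nat.zero_le _
  obtain ⟨hl, hs, _⟩ := H530.zero_stmt a b n lam hz
  have ha0 : (0 : ℝ) ≤ a := Nat.cast_nonneg a
  have hb0 : (0 : ℝ) ≤ b := Nat.cast_nonneg b
  have hd0 : (0 : ℝ) ≤ (dn lam 2 : ℝ) := Nat.cast_nonneg _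
  have g1 : (1000 : ℝ) * a ≤ b := by
    refine le_trans (mul_le_mul_of_nonneg_right ?_ ha0) hab
    linarith
  have g2 : C2 * a ≤ b := by
    refine le_trans (mul_le_mul_of_nonneg_right ?_ ha0) hab
    linarith
  have g3 : C3 * a ≤ b := by
    refine le_trans (mul_le_mul_of_nonneg_right ?_ ha0) hab
    linarith
  have g4 : C1 * a ≤ b := by
    refine le_trans (mul_le_mul_of_nonneg_right ?_ ha0) hab
    linarith
  have g5 : C2 * (dn lam 2 : ℝ) ≤ a * b := by
    refine le_trans (mul_le_mul_of_nonneg_right ?_ hd0) hd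
    linarith
  have g6 : 1000 * (dn lam 2 : ℝ) ≤ a * b := by
    refine le_trans (mul_le_mul_of_nonneg_right ?_ hd0) hd
    linarith
  have hab1 : a ≤ b := by
    have : (a : ℝ) ≤ b := by linarith
    exact_mod_cast this
  have hL := one_le_L a
  rcases Nat.lt_or_ge a A with haA | haA
  · exact h3 a b haA g3 n lam
  have hsm := hA a haA
  -- few boxes below row two
  by_cases hfew : a + dn lam 2 ≤ b + 1
  · exact hFew a b n lam hab1 (by omega)
  have hex2 : (ex lam 2 : ℝ) ≤ dn lam 2 := by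
    have := dn_succ lam 2
    exact_mod_cast (by omega : ex lam 2 ≤ dn lam 2)
  have hw : (dn lam 1 : ℝ) = ex lam 1 + dn lam 2 := by
    have := dn_succ lam 1
    exact_mod_cast this
  have haab : (a : ℝ) ^ 2 ≤ a * b / 1000 := by
    have : (a : ℝ) * (1000 * a) ≤ a * b := mul_le_mul_of_nonneg_left g1 ha0
    nlinarith
  rcases le_or_gt (200 * (dn lam 1 : ℝ)) (a * b) with hw2 | hw2
  · have hw2' : 200 * dn lam 1 ≤ a * b := by exact_mod_cast hw2
    by_cases hal : C1 * (1 + Real.log a) ^ c1 * a ≤ (dn lam 2 : ℝ)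
    · exact h1 a b g4 n lam hw2' (Or.inr (Or.inl hal))
    rw [not_le] at hal
    rcases hor with h | h | h | h
    · -- two long rows
      refine two_app hFew h2 lam hab1 hl hs g2 ?_ g5
      have hK : C1 * (1 + Real.log a) ^ c1 ≤ θ / 2 * a := by
        have e1 : 2 * C1 / θ * (1 + Real.log a) ^ c1 * (θ / 2) ≤ a * (θ / 2) :=
          mul_le_mul_of_nonneg_right hsm (by positivity)
        have e2 : 2 * C1 / θ * (1 + Real.log a) ^ c1 * (θ / 2) =
            C1 * (1 + Real.log a) ^ c1 := by field_simp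
        rw [e2] at e1
        linarith
      have hK2 : C1 * (1 + Real.log a) ^ c1 * a ≤ θ / 2 * a * a :=
        mul_le_mul_of_nonneg_right hK ha0
      have hK3 : θ' * (a : ℝ) ^ 2 ≤ θ / 2 * (a : ℝ) ^ 2 :=
        mul_le_mul_of_nonneg_right hθ1 (by positivity)
      nlinarith
    · refine h1 a b g4 n lam hw2' (Or.inl (le_trans ?_ h))
      exact mul_le_mul_of_nonneg_right
        (pow_mono_c hL hC1.le (by linarith) le_rfl) (Nat.cast_nonneg _)
    · exfalso
      have : C1 * (1 + Real.log a) ^ c1 * a ≤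
          (1000 + C1 + C2 + C3) * (1 + Real.log a) ^ c1 * a :=
        mul_le_mul_of_nonneg_right (pow_mono_c hL hC1.le (by linarith) le_rfl) ha0
      linarith
    · exact absurd h hfew
  · refine two_app hFew h2 lam hab1 hl hs g2 ?_ g5
    have e1 : θ' * (a : ℝ) ^ 2 ≤ 3 / 1000 * (a : ℝ) ^ 2 :=
      mul_le_mul_of_nonneg_right hθ2 (by positivity)
    nlinarith

/-! ### A long tail -/

lemma find_gap {a b n : ℕ} {lam : Fin n → ℕ} (hl : Antitone lam) {C1 R : ℝ} (hC1 : 0 < C1)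
    (hR5 : 5 ≤ R) (hRa : 4 * (C1 + 1) * R ≤ a) (hb1 : 0 < b)
    (hS : ((∑ j ∈ range n, min b (ex lam j) : ℕ) : ℝ) < R * b)
    (hd : (a : ℝ) * b < C1 * (dn lam 2 : ℝ)) :
    ∃ i : ℕ, 2 ≤ i ∧ (i : ℝ) ≤ R ∧
      (a : ℝ) * b ≤ 4 * (C1 + 1) * R ^ 2 * ((ex lam i : ℝ) - ex lam (i + 1)) := by
  have hbp : (0 : ℝ) < b := by exact_mod_cast hb1
  obtain ⟨S, hS'⟩ : ∃ S : ℕ, S = ∑ j ∈ range n, min b (ex lam j) := ⟨_, rfl⟩
  rw [← hS'] at hS
  obtain ⟨N, hN⟩ : ∃ N : ℕ, N = ⌊R⌋₊ := ⟨_, rfl⟩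
  have hN1 : (N : ℝ) ≤ R := by
    rw [hN]
    exact Nat.floor_le (by linarith)
  have hN2 : R < N + 1 := by
    rw [hN]
    exact Nat.lt_floor_add_one R
  have hN5 : 5 ≤ N := by
    rw [hN]
    exact Nat.le_floor (by exact_mod_cast hR5)
  rcases fat_alt hl b N hb1 with hf | ⟨hf, hfN⟩
  · exfalso
    rw [← hS'] at hf
    have e1 : (b : ℝ) * (N + 1) ≤ S := by exact_mod_cast hf
    have e2 : R * b < (N + 1) * b := mul_lt_mul_of_pos_right hN2 hbp
    linarith
  rw [← hS'] at hf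
  obtain ⟨r, hr⟩ : ∃ r, N = 2 + r := ⟨N - 2, by omega⟩
  have hrR : (r : ℝ) ≤ R := by
    have : (r : ℝ) ≤ N := by exact_mod_cast (by omega : r ≤ N)
    linarith
  have hr3 : (3 : ℝ) ≤ r := by exact_mod_cast (by omega : 3 ≤ r)
  have hrp : (0 : ℝ) < r := by linarith
  have hrows : (dn lam 2 : ℝ) ≤ r * ex lam 2 + dn lam N := by
    have := dn_le_rows hl 2 r
    rw [← hr] at this
    exact_mod_cast this
  have hdnN : (dn lam N : ℝ) ≤ S := by exact_mod_cast hf
  have hexN : (ex lam N : ℝ) < b := by exact_mod_cast hfN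
  have hC1' : 0 < C1 + 1 := by linarith
  have hRab : 4 * (C1 + 1) * R * b ≤ a * b := mul_le_mul_of_nonneg_right hRa hbp.le
  have hD0 : (0 : ℝ) ≤ (dn lam 2 : ℝ) := Nat.cast_nonneg _
  obtain ⟨U, hU⟩ : ∃ U : ℝ, U = a * b / (4 * (C1 + 1)) := ⟨_, rfl⟩
  have hU1 : 4 * (C1 + 1) * U = a * b := by
    rw [hU]
    field_simp
  have hRU : R * b ≤ U := by
    have : 4 * (C1 + 1) * (R * b) ≤ 4 * (C1 + 1) * U := by
      rw [hU1]
      linarith
    exact le_of_mul_le_mul_left this (by positivity)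
  have hUp : 0 < U := lt_of_lt_of_le (mul_pos (by linarith) hbp) hRU
  have hDU : 4 * U < dn lam 2 := by
    have e1 : (C1 + 1) * (4 * U) < (C1 + 1) * (dn lam 2 : ℝ) := by
      have e2 : (C1 + 1) * (4 * U) = a * b := by linarith
      rw [e2]
      linarith
    exact lt_of_mul_lt_mul_left e1 hC1'.le
  have hre : 3 * U < r * ex lam 2 := by linarith
  have hreN : (r : ℝ) * ex lam N ≤ U := by
    have e1 : (r : ℝ) * ex lam N ≤ R * b :=
      mul_le_mul hrR hexN.le (Nat.cast_nonneg _) (by linarith)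
    linarith
  have hgap : 2 * U < r * ((ex lam 2 : ℝ) - ex lam N) := by
    rw [mul_sub]
    linarith
  obtain ⟨i, hi1, hi2, hi3⟩ := exists_gap (fun j => (ex lam j : ℝ)) (U / r ^ 2) 2 r (by
    rw [← hr]
    have e1 : (r : ℝ) * (U / r ^ 2) = U / r := by
      field_simp
    rw [e1, div_lt_iff₀ hrp]
    linarith)
  refine ⟨i, hi1, ?_, ?_⟩
  · have : (i : ℝ) ≤ N := by exact_mod_cast (by omega : i ≤ N)
    linarith
  · have e2 : (r : ℝ) ^ 2 ≤ R ^ 2 := pow_le_pow_left₀ hrp.le hrR 2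
    have e3 : 4 * (C1 + 1) * U = 4 * (C1 + 1) * r ^ 2 * (U / r ^ 2) := by
      field_simp
    have e5 : 0 ≤ U / (r : ℝ) ^ 2 := by positivity
    rw [← hU1, e3]
    calc 4 * (C1 + 1) * (r : ℝ) ^ 2 * (U / r ^ 2) ≤ 4 * (C1 + 1) * R ^ 2 * (U / r ^ 2) :=
          mul_le_mul_of_nonneg_right (mul_le_mul_of_nonneg_left e2 (by positivity)) e5
      _ ≤ 4 * (C1 + 1) * R ^ 2 * ((ex lam i : ℝ) - ex lam (i + 1)) :=
          mul_le_mul_of_nonneg_left hi3 (by positivity)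

lemma two_mul_lt {T' a b S C : ℝ} (hb : 0 < b) (hS0 : 0 ≤ S) (h2 : 2 * a ≤ b)
    (h : (b - a) * S < C * b ^ 2) (hC : 2 * C ≤ T') : S < T' * b := by
  have e1 : b / 2 * S ≤ (b - a) * S := mul_le_mul_of_nonneg_right (by linarith) hS0
  have e2 : b * S < b * (2 * C * b) := by
    have : b * (2 * C * b) = 2 * (C * b ^ 2) := by ring
    rw [this]
    linarith
  exact (lt_of_mul_lt_mul_left e2 hb.le).trans_le (mul_le_mul_of_nonneg_right hC hb.le)

theorem linFull_of (hD : LinD) (hG : GapM) (hF : FatL) (hP : PolyS) : LinFull := by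
  intro θ hθ
  obtain ⟨C1, c1, hC1, h1⟩ := hD θ hθ
  obtain ⟨C2, c2, hC2, h2⟩ := hF
  have hPS := hP
  obtain ⟨C3, c3, hC3, h3⟩ := hPS
  obtain ⟨C0, hC0⟩ : ∃ C0 : ℝ, C0 = 2 * C2 + 5 := ⟨_, rfl⟩
  have hC0p : 5 ≤ C0 := by linarith
  obtain ⟨P, hPd⟩ : ∃ P : ℝ, P = 4 * (C1 + 1) * C0 ^ 2 + C3 := ⟨_, rfl⟩
  have hPp : 0 < P := by
    rw [hPd]
    positivity
  obtain ⟨C4, h4⟩ := hG P (2 * c2 + c3) hPp
  obtain ⟨A, hA⟩ := polylog_le (4 * (C1 + 1) * C0) c2
  obtain ⟨C5, hC5, h5⟩ := small_a hP A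
  refine ⟨2 + C1 + |C4| + C5, c1, by positivity, fun a b hab n lam hor => ?_⟩
  by_cases hz : plethMult a b n lam = 0
  · rw [hz]
    exact Nat.zero_le _
  obtain ⟨hl, hs, _⟩ := H530.zero_stmt a b n lam hz
  have ha0 : (0 : ℝ) ≤ a := Nat.cast_nonneg a
  have hC4 : C4 ≤ |C4| := le_abs_self C4
  have hC4' : 0 ≤ |C4| := abs_nonneg C4
  have g1 : C1 * a ≤ b := le_trans (mul_le_mul_of_nonneg_right (by linarith) ha0) hab
  have g2 : (2 : ℝ) * a ≤ b := le_trans (mul_le_mul_of_nonneg_right (by linarith) ha0) hab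
  have g4 : C4 * a ≤ b := le_trans (mul_le_mul_of_nonneg_right (by linarith) ha0) hab
  have g5 : C5 * a ≤ b := le_trans (mul_le_mul_of_nonneg_right (by linarith) ha0) hab
  have hab1 : a ≤ b := by
    have : (a : ℝ) ≤ b := by linarith
    exact_mod_cast this
  have hL := one_le_L a
  rcases Nat.lt_or_ge a A with haA | haA
  · exact h5 a b haA g5 n lam
  have hsm := hA a haA
  by_cases hbig : C3 * a * (1 + Real.log a) ^ c3 ≤ b
  · exact h3 a b hbig n lam
  rw [not_le] at hbig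
  by_cases hd : C1 * (dn lam 2 : ℝ) ≤ a * b
  · refine h1 a b g1 n lam hd ?_
    have hm : C1 * (1 + Real.log a) ^ c1 ≤ (2 + C1 + |C4| + C5) * (1 + Real.log a) ^ c1 :=
      pow_mono_c hL hC1.le (by linarith) le_rfl
    rcases hor with h | h | h | h
    · exact Or.inl h
    · exact Or.inr (Or.inl
        (le_trans (mul_le_mul_of_nonneg_right hm (Nat.cast_nonneg _)) h))
    · exact Or.inr (Or.inr (Or.inl (le_trans (mul_le_mul_of_nonneg_right hm ha0) h)))
    · exact Or.inr (Or.inr (Or.inr h))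
  rw [not_le] at hd
  by_cases hfat : C2 * (1 + Real.log a) ^ c2 * (b : ℝ) ^ 2 ≤
      ((b : ℝ) - a) * ∑ i, ((min b (lam i) : ℕ) : ℝ)
  · exact h2 a b n lam hab1 hfat
  rw [not_le, min_range] at hfat
  rcases Nat.eq_zero_or_pos b with hb1 | hb1
  · have ha1 : a = 0 := by omega
    subst hb1
    subst ha1
    exact le_rfl
  have hbp : (0 : ℝ) < b := by exact_mod_cast hb1
  obtain ⟨T, hT⟩ : ∃ T : ℝ, T = 1 + Real.log a := ⟨_, rfl⟩
  rw [← hT] at hL hsm hbig hfat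
  have hTc : 1 ≤ T ^ c2 := one_le_pow₀ hL
  have hT3 : 1 ≤ T ^ c3 := one_le_pow₀ hL
  have hT2 : 1 ≤ T ^ (2 * c2) := one_le_pow₀ hL
  have hR5 : 5 ≤ C0 * T ^ c2 :=
    le_trans hC0p (le_mul_of_one_le_right (by linarith) hTc)
  have hRC : 2 * (C2 * T ^ c2) ≤ C0 * T ^ c2 := by
    have : 2 * C2 * T ^ c2 ≤ C0 * T ^ c2 :=
      mul_le_mul_of_nonneg_right (by linarith) (by linarith)
    linarith
  have hRa : 4 * (C1 + 1) * (C0 * T ^ c2) ≤ a := by
    calc 4 * (C1 + 1) * (C0 * T ^ c2) = 4 * (C1 + 1) * C0 * T ^ c2 := by ring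
      _ ≤ a := hsm
  have hSR := two_mul_lt hbp (Nat.cast_nonneg _) g2 hfat hRC
  obtain ⟨i, hi1, hi2, hi3⟩ := find_gap hl hC1 hR5 hRa hb1 hSR hd
  have hPT : 4 * (C1 + 1) * (C0 * T ^ c2) ^ 2 ≤ P * T ^ (2 * c2 + c3) := by
    have e0 : (C0 * T ^ c2) ^ 2 = C0 ^ 2 * T ^ (2 * c2) := by ring
    rw [e0, pow_add, ← mul_assoc]
    refine mul_le_mul ?_ (le_mul_of_one_le_right (by linarith) hT3) (by linarith) hPp.le
    rw [hPd]
    linarith
  have hRP : C0 * T ^ c2 ≤ P * T ^ (2 * c2 + c3) := by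
    refine le_trans ?_ hPT
    have e1 : 1 * (C0 * T ^ c2) ≤ 4 * (C1 + 1) * (C0 * T ^ c2) * (C0 * T ^ c2) := by
      refine mul_le_mul_of_nonneg_right ?_ (by linarith)
      have : 1 * 5 ≤ 4 * (C1 + 1) * (C0 * T ^ c2) :=
        mul_le_mul (by linarith) hR5 (by norm_num) (by linarith)
      linarith
    calc C0 * T ^ c2 = 1 * (C0 * T ^ c2) := (one_mul _).symm
      _ ≤ _ := e1
      _ = 4 * (C1 + 1) * (C0 * T ^ c2) ^ 2 := by ring
  refine h4 a b g4 ?_ n lam hl hs i hi1 ?_ ?_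
  · rw [← hT]
    refine hbig.le.trans ?_
    have e1 : C3 * T ^ c3 ≤ P * T ^ (2 * c2 + c3) := by
      rw [pow_add]
      refine mul_le_mul ?_ (le_mul_of_one_le_left (by linarith) hT2) (by linarith) hPp.le
      rw [hPd]
      have : 0 ≤ 4 * (C1 + 1) * C0 ^ 2 := by positivity
      linarith
    calc C3 * a * T ^ c3 = C3 * T ^ c3 * a := by ring
      _ ≤ _ := mul_le_mul_of_nonneg_right e1 ha0
  · rw [← hT]
    exact hi2.trans hRP
  · rw [← hT]
    have e0 : (a : ℝ) ^ 2 ≤ a * b := by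
      rw [sq]
      exact mul_le_mul_of_nonneg_left (by linarith) ha0
    have e1 : (0 : ℝ) ≤ (ex lam i : ℝ) - ex lam (i + 1) := by
      have : (ex lam (i + 1) : ℝ) ≤ ex lam i := by exact_mod_cast ex_anti hl (by omega)
      linarith
    exact e0.trans (hi3.trans (mul_le_mul_of_nonneg_right hPT e1))

end Vale.Agent.P181.LF
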